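import Crest.Agent.X212.Dm83.Int

/-!
# Row 212, D-MIR (helper83), part 1: the mirror image of a graded module in an orthogonal gauge
-/

set_option autoImplicit false
set_option linter.unusedSectionVars false
noncomputable section
open scoped Manifold ContDiff Topology InnerProductSpace
open MeasureTheory Set Function Filter

namespace Crest.Agent.X212.Dm83
open An Ix82 Wz78 Sob92 Ind95
open M (Mf pm)

variable {κ U : Type} [Fintype κ] [NormedAddCommGroup U] [InnerProductSpace ℝ U] [FiniteDimensional ℝ U]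

theorem cpl : CompleteSpace U := FiniteDimensional.complete ℝ U

attribute [local instance] cpl

/-- an orthogonal gauge -/
structure Og (M : DM κ U) (g h : M.X.M → U →L[ℝ] U) : Prop where
  sg : ∀ x, SA M.X.I g x
  gh : ∀ x, g x * h x = 1
  hg : ∀ x, h x * g x = 1
  st : ∀ x, star (g x) = h x

/-- the mirror image of the data in the gauge `g` -/
def md (M : DM κ U) (g h : M.X.M → U →L[ℝ] U) (x : M.X.M) : DF κ U where
  o a b c d := -(sn a * sn b * sn c * sn d * M.o a b c d x)
  p₀ := g x * M.p₁ x * h x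
  p₁ := g x * M.p₀ x * h x
  ρ a := -sn a • (g x * M.ρ a x * h x)
  A a := sn a • (g x * M.A a x * h x - dv M.X.I (M.F.e a) g x * h x)
  B := g x * M.p₀ x * h x * M.B x

section gauge
variable {M : DM κ U} {g h : M.X.M → U →L[ℝ] U} (G : Og M g h)
include G

theorem Og.st' (x : M.X.M) : star (h x) = g x := by rw [← G.st, star_star]

theorem Og.sh (x : M.X.M) : SA M.X.I h x := by
  rw [show h = fun y => (starL' ℝ : (U →L[ℝ] U) ≃L[ℝ] (U →L[ℝ] U)) (g y) from funext fun y => (G.st y).symm]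
  exact (starL' ℝ : (U →L[ℝ] U) ≃L[ℝ] (U →L[ℝ] U)).contDiff.contMDiff.contMDiffAt.comp x (G.sg x)

theorem Og.cj {T : M.X.M → U →L[ℝ] U} {x : M.X.M} (hT : SA M.X.I T x) :
    SA M.X.I (fun y => g y * T y * h y) x := ((G.sg x).mul hT).mul (G.sh x)

theorem Og.dh (v : Π x : M.X.M, TangentSpace M.X.I x) (x : M.X.M) :
    dv M.X.I v h x = -(h x * dv M.X.I v g x * h x) := by
  have h1 := dv_mul (e := v) (G.sg x) (G.sh x)
  rw [show (fun y => g y * h y) = fun _ => 1 from funext G.gh, dv_const, Pi.zero_apply] at h1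
  rw [mul_assoc, eq_neg_of_add_eq_zero_left h1.symm, mul_neg, neg_neg, ← mul_assoc, G.hg, one_mul]

theorem Og.sd (v : Π x : M.X.M, TangentSpace M.X.I x) (x : M.X.M) :
    star (dv M.X.I v g x * h x) = -(dv M.X.I v g x * h x) := by
  have h1 := dv_clm (e := v) (starL' ℝ : (U →L[ℝ] U) ≃L[ℝ] (U →L[ℝ] U)).toContinuousLinearMap (G.sg x).md
  have h2 : star (dv M.X.I v g x) = dv M.X.I v h x := by
    rw [show h = fun y => star (g y) from funext fun y => (G.st y).symm]; exact h1.symm
  rw [star_mul, G.st', h2, G.dh, mul_neg, ← mul_assoc, ← mul_assoc, G.gh, one_mul]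

theorem Og.mul (S T : U →L[ℝ] U) (x : M.X.M) : g x * S * h x * (g x * T * h x) = g x * (S * T) * h x := by
  rw [mul_assoc (g x * S), ← mul_assoc (h x), ← mul_assoc (h x), G.hg, one_mul]
  simp only [mul_assoc]

theorem Og.star (S : U →L[ℝ] U) (x : M.X.M) : star (g x * S * h x) = g x * star S * h x := by
  rw [star_mul, star_mul, G.st, G.st', mul_assoc]

variable {F' : Fr M.X.I M.X.M (Option κ)} (he : ∀ a x, F'.e a x = sn a • M.F.e a x)
include he

omit G in
theorem mir_dv {V : Type} [NormedAddCommGroup V] [NormedSpace ℝ V] (a : Option κ) (u : M.X.M → V)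
    (x : M.X.M) : dv M.X.I (F'.e a) u x = sn a • dv M.X.I (M.F.e a) u x := by
  unfold dv; rw [he, map_smul]; rfl

theorem Og.nab (a : Option κ) {T : M.X.M → U →L[ℝ] U} {x : M.X.M} (hT : SA M.X.I T x) :
    nabE M.X.I F'.e (fun a y => (md M g h y).A a) a (fun y => g y * T y * h y) x =
      sn a • (g x * nabE M.X.I M.F.e M.A a T x * h x) := by
  simp only [nabE, md]
  rw [mir_dv he, dv_mul ((G.sg x).mul hT) (G.sh x), dv_mul (G.sg x) hT, G.dh, smul_mul_assoc,
    mul_smul_comm, ← smul_sub, ← smul_add, sub_mul, mul_sub, G.mul, G.mul]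
  congr 1
  have h1 : dv M.X.I (M.F.e a) g x * h x * (g x * T x * h x) = dv M.X.I (M.F.e a) g x * T x * h x := by
    rw [mul_assoc (g x), mul_assoc, ← mul_assoc (h x), G.hg, one_mul, mul_assoc]
  rw [h1]; noncomm_ring

theorem Og.loc (L : M.Loc) (hΓ : ∀ a b c x, F'.Gam a b c x = sn a * sn b * sn c * M.F.Gam a b c x)
    (ho : Num57.OK F' fun a b c d x => -(sn a * sn b * sn c * sn d * M.o a b c d x)) :
    DM.Loc ⟨M.X, F', md M g h⟩ := by
  have C := L.dm.cc
  have R := L.gr
  have R' := R.symm C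
  have hp : DM.p ⟨M.X, F', md M g h⟩ = fun y => g y * M.p y * h y := funext fun y => by
    show g y * M.p₁ y * h y + g y * M.p₀ y * h y = g y * (M.p₀ y + M.p₁ y) * h y
    noncomm_ring
  have sc : ∀ (r : ℝ) {T : M.X.M → U →L[ℝ] U} {x}, SA M.X.I T x → SA M.X.I (fun y => r • T y) x :=
    fun r _ _ hT => SA.smul (f := fun _ => r) contMDiffAt_const hT
  have sq : ∀ (a b : Option κ) (r : ℝ), sn a * sn b * r * sn b = sn a * r := fun a b r => by
    linear_combination sn a * r * sn_sq b
  refine ⟨ho, ⟨ho.h4, ho.isv, riem_of_vol ho.isv, lc_gam F', ⟨⟨fun a x => ?_, fun a x => ?_⟩,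
    fun x => hp ▸ G.cj (C.sp x), fun a x => sc _ (G.cj (C.sρ a x)), fun x => ?_, fun a x => ?_,
    fun a b x => ?_⟩, fun a x => skew_iff.2 ?_, fun a x => skew_iff.2 ?_⟩,
    ⟨fun x => G.cj (R'.s0 x), fun x => sym_iff.2 ?_, fun x => sym_iff.2 ?_, fun x => ?_, fun x => ?_,
      fun x => rfl, fun x => ?_, fun a x => ?_, fun a x => ?_⟩,
    fun x => (G.cj (R.s0 x)).mul (L.sB x), fun x v => ?_⟩
  · exact sc _ ((G.cj (C.sm a x)).sub (SA.mul ((frm M.F).sD a (G.sg x)) (G.sh x)))
  · show ∑ b, F'.P a b x • (md M g h x).A b = (md M g h x).A a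
    have h1 : ∑ b, M.F.P a b x • dv M.X.I (M.F.e b) g x = dv M.X.I (M.F.e a) g x := by
      unfold dv; conv_rhs => rw [← M.F.P_e a x, map_sum]
      simp only [map_smul]; rfl
    simp only [md, mir_P he, smul_smul, sq]
    conv_rhs => rw [← C.proj a x, ← h1]
    simp only [Finset.mul_sum, Finset.sum_mul, ← Finset.sum_sub_distrib, Finset.smul_sum,
      mul_smul_comm, smul_mul_assoc, ← smul_sub, smul_smul]
  · have K : Wz78.Cl (fun a b => M.F.P a b x) (M.p x) (M.d x).ρ := C.cl x
    rw [hp]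
    refine ⟨fun a b => ?_, fun a => ?_, fun a => ?_, fun a => ?_⟩ <;>
      simp only [DM.ρ, md, smul_mul_assoc, mul_smul_comm, G.mul, mir_P he, smul_smul]
    · rw [mul_comm (-sn a), ← smul_add, ← add_mul, ← mul_add, K.rel, mul_smul_comm, smul_mul_assoc,
        smul_smul]
      congr 1; ring
    · rw [K.pl]
    · rw [K.pr]
    · conv_rhs => rw [← K.proj a]
      simp only [mul_neg, sq, Finset.mul_sum, Finset.sum_mul, Finset.smul_sum,
        mul_smul_comm, smul_mul_assoc, smul_smul, neg_mul]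
  · have := G.nab he a (C.sp x)
    rw [show nabE M.X.I M.F.e M.A a M.p x = 0 from C.par a x, mul_zero, zero_mul, smul_zero, ← hp] at this
    exact this
  · have h1 := G.nab he a (C.sρ b x)
    have h2 := nabE_smul (e := F'.e) (A := fun a y => (md M g h y).A a) a (f := fun _ => -sn b)
      contMDiffAt_const (G.cj (C.sρ b x))
    rw [h1, dv_const, Pi.zero_apply, zero_smul, zero_add,
      show nabE M.X.I M.F.e M.A a (M.ρ b) x = _ from C.comp a b x] at h2
    refine Eq.trans h2 ?_
    simp only [DM.ρ, md, hΓ, Finset.mul_sum, Finset.sum_mul, Finset.smul_sum,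
        mul_smul_comm, smul_mul_assoc, smul_smul]
    exact Finset.sum_congr rfl fun k _ => by
      congr 1; linear_combination sn a * sn b * M.F.Gam a b k x * sn_sq k
  · simp only [DM.A, md, star_smul, star_trivial, star_sub, G.star, G.sd, skew_iff.1 (L.dm.skA a x)]
    rw [← smul_neg]; congr 1; noncomm_ring
  · simp only [DM.ρ, md, star_smul, star_trivial, G.star, skew_iff.1 (L.dm.skρ a x)]
    rw [← smul_neg]; congr 1; noncomm_ring
  · exact (G.star _ x).trans (by rw [sym_iff.1 (R.sym1 x)]; rfl)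
  · exact (G.star _ x).trans (by rw [sym_iff.1 (R.sym0 x)]; rfl)
  · exact (G.mul _ _ x).trans (by rw [R.id1]; rfl)
  · exact (G.mul _ _ x).trans (by rw [R.id0]; rfl)
  · exact (G.mul _ _ x).trans (by rw [R.o10, mul_zero, zero_mul])
  · simp only [DM.ρ, DM.p₀, DM.p₁, md, smul_mul_assoc, mul_smul_comm, G.mul]
    rw [show (M.d x).ρ a * (M.d x).p₁ = (M.d x).p₀ * (M.d x).ρ a from R'.sw a x]
  · exact (G.nab he a (R'.s0 x)).trans (by rw [R'.par0, mul_zero, zero_mul, smul_zero])
  · show (g x * M.p₀ x * h x * (g x * M.p₀ x * h x * M.B x)) v = (g x * M.p₀ x * h x * M.B x) v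
    rw [← mul_assoc, G.mul, R.id0]

end gauge

end Crest.Agent.X212.Dm83
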