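import Crest.Agent.X212.Dm83.Int

/-!
# Row 212, D-MIR (helper83), part 2: the mirror frame and the reflected ends
-/

set_option autoImplicit false
set_option linter.unusedSectionVars false
noncomputable section
open scoped Manifold ContDiff Topology
open MeasureTheory Set Function Filter

namespace Crest.Agent.X212.Dm83
open An Ix82 Cyf70 Sob92
open M (Mf pm pm_mul_pm pm_not)

variable {κ U : Type} [Fintype κ] [NormedAddCommGroup U] [InnerProductSpace ℝ U] [FiniteDimensional ℝ U]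

section frame
variable {X : Mf 4}

theorem dv_sn {V : Type} [NormedAddCommGroup V] [NormedSpace ℝ V] (v : Π x : X.M, TangentSpace X.I x)
    (a b : Option κ) (u : X.M → V) (x : X.M) :
    dv X.I (fun y => sn a • v y) (fun y => sn b • u y) x = (sn a * sn b) • dv X.I v u x := by
  have h : dv X.I v (fun y => sn b • u y) x = sn b • dv X.I v u x := by
    cases b <;> simp only [sn, neg_smul, one_smul]
    exact dv_neg u x
  rw [← smul_smul, ← h]; unfold dv; rw [map_smul]; rfl

theorem dv_sn' {V : Type} [NormedAddCommGroup V] [NormedSpace ℝ V] (v : Π x : X.M, TangentSpace X.I x)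
    (a : Option κ) (u : X.M → V) : dv X.I (fun y => sn a • v y) u = fun x => sn a • dv X.I v u x := by
  funext x; unfold dv; rw [map_smul]; rfl

theorem sq (a b : Option κ) (r : ℝ) : sn a * sn b * r * sn b = sn a * r := by
  linear_combination sn a * r * sn_sq b

/-- the mirror frame -/
def mf (F : Fr X.I X.M (Option κ)) : Fr X.I X.M (Option κ) where
  e a x := sn a • F.e a x
  μ := F.μ
  sm a := (F.sm a).const_smul_section
  span x := top_unique <| (F.span x).ge.trans <| Submodule.span_le.2 <| by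
    rintro _ ⟨a, rfl⟩
    have := Submodule.smul_mem (Submodule.span ℝ (range fun a => sn a • F.e a x)) (sn a)
      (Submodule.subset_span ⟨a, rfl⟩)
    rwa [smul_smul, sn_sq, one_smul] at this
  fin := F.fin
  dens := F.dens
  P a b x := sn a * sn b * F.P a b x
  c a b l x := sn a * sn b * sn l * F.c a b l x
  dv a x := sn a * F.dv a x
  P_sm a b := contMDiff_const.mul (F.P_sm a b)
  c_sm a b l := contMDiff_const.mul (F.c_sm a b l)
  dv_sm a := contMDiff_const.mul (F.dv_sm a)
  P_symm a b x := by rw [F.P_symm a b, mul_comm (sn a)]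
  P_e a x := by
    conv_rhs => rw [← F.P_e a x, Finset.smul_sum]
    simp only [smul_smul, sq]
  P_ker x ξ h a := by
    have := F.P_ker x (fun b => ξ b * sn b) (by simpa only [smul_smul] using h) a
    rw [← mul_zero (sn a), ← this, Finset.mul_sum]
    exact Finset.sum_congr rfl fun b _ => by ring
  c_P a b l x := by
    rw [← F.c_P a b l x, Finset.mul_sum]
    exact Finset.sum_congr rfl fun m _ => by
      linear_combination sn a * sn b * sn l * F.P l m x * F.c a b m x * sn_sq m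
  br a b f x hf := by
    simp only [Pre.D_def]
    rw [dv_sn' _ b, dv_sn' _ a f, dv_sn, dv_sn, mul_comm (sn b), ← smul_sub]
    refine (congrArg _ (F.br a b f x hf)).trans ?_
    simp only [dv_sn', smul_eq_mul, Finset.mul_sum, Pre.D_def]
    exact Finset.sum_congr rfl fun l _ => by
      linear_combination -sn a * sn b * F.c a b l x * dv X.I (F.e l) f x * sn_sq l
  ibp a f h1 h2 := by
    simp only [Pre.D_def, dv_sn', smul_eq_mul, mul_assoc, integral_const_mul, ← mul_neg]
    exact congrArg _ (F.ibp a f h1 h2)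

theorem mf_gam (F : Fr X.I X.M (Option κ)) (a b c : Option κ) (x : X.M) :
    (mf F).Gam a b c x = sn a * sn b * sn c * F.Gam a b c x := by
  have h : ∀ a b c, (mf F).D a ((mf F).P b c) x = sn a * sn b * sn c * F.D a (F.P b c) x := fun a b c => by
    have := dv_const_smul (e := F.e a) (sn b * sn c) ((F.P_sm b c x).mdifferentiableAt (by simp))
    refine (congrFun (dv_sn' (F.e a) a _) x).trans ((congrArg _ this).trans ?_)
    simp only [smul_eq_mul, mul_assoc, Pre.D_def]
  simp only [Fr.Gam, h]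
  simp only [mf]
  ring

theorem mf_ok {F : Fr X.I X.M (Option κ)} {o : Option κ → Option κ → Option κ → Option κ → X.M → ℝ}
    (h : Num57.OK F o) : Num57.OK (mf F) fun a b c d x => -(sn a * sn b * sn c * sn d * o a b c d x) where
  h4 := h.h4
  isv x₀ := by
    have : ∀ x, (mf F).gram x₀ x = F.gram x₀ x := fun x => by
      ext i j
      simp only [Pre.gram, Matrix.of_apply, mf, Pre.D_def, dv_sn', map_smul, Finsupp.smul_apply, smul_eq_mul]
      exact Finset.sum_congr rfl fun a _ => by rw [mul_mul_mul_comm, sn_sq, one_mul]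
    simp only [this]
    exact h.isv x₀
  sm a b c d := (contMDiff_const.mul (h.sm a b c d)).neg
  vo x := by
    have v := h.vo x
    refine ⟨(Wz78.frm (mf F)).pr x, ?_, fun a b c d => ?_, fun a b c d => ?_, fun a b c d => ?_,
      fun a b c d => ?_, ?_⟩
    · simp only [mf, sn_sq, one_mul, v.tr]
    · rw [v.a1]; ring
    · rw [v.a2]; ring
    · rw [v.a3]; ring
    · rw [← v.po, Finset.mul_sum, ← Finset.sum_neg_distrib]
      exact Finset.sum_congr rfl fun k _ => by
        simp only [mf]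
        linear_combination -sn a * sn b * sn c * sn d * F.P a k x * o k b c d x * sn_sq k
    · simp only [neg_sq, mul_pow, pow_two (sn _), sn_sq, one_mul, v.nm]

end frame

theorem oc {e : DE κ U} (h : e.OK) (y : e.Y.M) (a b c d : Option κ) :
    -(sn a * sn b * sn c * sn d * (e.d y).o a b c d) = (e.d y).o a b c d := by
  have := Num57.schouten (h.loc.ok.vo (y, 0)) a b c d none none
  cases a <;> cases b <;> cases c <;> cases d <;>
    simp only [cyl, cP, sn, DM.o, mul_one, one_mul, zero_mul, add_zero, zero_add] at this ⊢ <;> linarith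

/-- the reflection of the cylinder -/
def rf (Y : Type) [TopologicalSpace Y] (c : ℝ) : Y × ℝ ≃ₜ Y × ℝ :=
  (Homeomorph.refl Y).prodCongr (Homeomorph.subLeft c)

section ends
variable {M : DM κ U} {e : DE κ U} {s : Bool} (k : En e s M)

theorem rf_sm (Y : Mf 3) (c : ℝ) : ContMDiff (IC Y.I) (IC Y.I) ∞ (rf Y.M c) :=
  contMDiff_fst.prodMk (contMDiff_const.sub contMDiff_snd)

theorem rf_e (e : DE κ U) (c : ℝ) (a : Option κ) (x : e.Y.M × ℝ) :
    mfderiv (IC e.Y.I) (IC e.Y.I) (rf e.Y.M c) x (ce e.F.e a x) = sn a • ce e.F.e a (rf e.Y.M c x) := by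
  have g := ((hasDerivAt_id x.2).const_sub c).hasFDerivAt.hasMFDerivAt
  have h := ((hasMFDerivAt_id (I := e.Y.I) x.1).prodMap g).mfderiv
  rw [mfderiv_id, g.mfderiv] at h
  refine (congrArg (· (ce e.F.e a x)) h).trans ?_
  cases a
  · show (((0 : e.Y.E), (1 : ℝ) • (-1 : ℝ)) : e.Y.E × ℝ) = (-1 : ℝ) • ((0 : e.Y.E), (1 : ℝ))
    simp
  · rw [sn, one_smul]
    exact Prod.ext rfl (zero_smul ℝ (-1 : ℝ))

theorem En.sm (x : M.X.M) (hx : x ∈ k.ψ.target) : ContMDiffAt M.X.I 𝓘(ℝ, ℝ) ∞ k.tm x :=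
  (contMDiffAt_snd.comp x (k.lit.iso.sm'.contMDiffAt (k.ψ.open_target.mem_nhds hx))).congr_of_eventuallyEq <| by
    filter_upwards [k.ψ.open_target.mem_nhds hx] with y hy
    rw [comp, ← k.tm_ψ _ (k.ψ.map_target hy), k.ψ.right_inv hy]

/-- the reflected end -/
def rψ : OpenPartialHomeomorph (e.Y.M × ℝ) M.X.M :=
  ((rf e.Y.M (2 * pm s)).transOpenPartialHomeomorph k.ψ).restrOpen {x | 0 < pm (!s) * x.2}
    (isOpen_lt continuous_const (by fun_prop))

theorem rf_mem {x : e.Y.M × ℝ} (hx : 0 < pm (!s) * x.2) : 2 < pm s * (rf e.Y.M (2 * pm s) x).2 := by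
  rw [pm_not] at hx
  show 2 < pm s * (2 * pm s - x.2)
  linarith [pm_mul_pm s]

theorem rψ_src : (rψ k).source = {x | 0 < pm (!s) * x.2} :=
  inter_eq_right.2 fun _ hx => k.src.ge (two_pos.trans (rf_mem hx))

theorem rψ_tgt : (rψ k).target = {x | 0 < pm (!s) * (2 * pm s - k.tm x)} := by
  have h : ∀ x ∈ k.ψ.target, ((rf e.Y.M (2 * pm s)).symm (k.ψ.symm x)).2 = 2 * pm s - k.tm x := fun x hx => by
    conv_rhs => rw [← k.ψ.right_inv hx, k.tm_ψ _ (k.ψ.map_target hx)]
    show -(k.ψ.symm x).2 + 2 * pm s = _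
    ring
  ext x
  refine ⟨fun hx => hx.2.out.trans_eq (congrArg (pm (!s) * ·) (h x hx.1)), fun hx => ?_⟩
  have t : x ∈ k.ψ.target := k.tgt.ge (by
    have := hx.out
    rw [pm_not] at this
    show 0 < pm s * k.tm x
    linarith [pm_mul_pm s])
  exact ⟨t, hx.out.trans_eq (congrArg (pm (!s) * ·) (h x t)).symm⟩

variable {F' : Fr M.X.I M.X.M (Option κ)} {d' : M.X.M → DF κ U}

theorem rψ_iso (he : e.OK) (hm : Mir M F' d') (hv : F'.IsVol) : An.Iso e.cyl.F.toPre F'.toPre (rψ k) := by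
  have h1 : ContMDiffOn (IC e.Y.I) M.X.I ∞ (k.ψ ∘ rf e.Y.M (2 * pm s)) (rψ k).source :=
    k.lit.iso.sm.comp (rf_sm _ _).contMDiffOn fun x hx => hx.1
  have h2 : ContMDiffOn M.X.I (IC e.Y.I) ∞ ((fun x : e.Y.M × ℝ => (x.1, -x.2 + 2 * pm s)) ∘ k.ψ.symm)
      (rψ k).target := (contMDiff_fst.prodMk (contMDiff_snd.neg.add contMDiff_const)).comp_contMDiffOn
        (k.lit.iso.sm'.mono inter_subset_left)
  refine Int54.iso_of_vol (M.X.dim.trans e.cyl.X.dim.symm) hv he.loc.ok.isv h1 h2 fun a x hx => ?_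
  have h := mfderiv_comp_apply (f := rf e.Y.M (2 * pm s)) x ((iso_smAt k.lit.iso hx.1).mdifferentiableAt (by simp))
    ((rf_sm e.Y (2 * pm s) x).mdifferentiableAt (by simp)) (ce e.F.e a x)
  rw [rf_e, map_smul] at h
  exact h.trans ((congrArg _ (k.lit.iso.e a _ hx.1)).trans (hm.e a _).symm)

/-- the end of the mirror image -/
def ren (he : e.OK) (hm : Mir M F' d') (hv : F'.IsVol)
    (hd : ∀ x : e.Y.M × ℝ, 2 < pm s * x.2 → d' (k.ψ x) = e.d x.1) : En e (!s) ⟨M.X, F', d'⟩ where
  ψ := (rψ k :)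
  tm x := 2 * pm s - k.tm x
  src := rψ_src k
  tgt := rψ_tgt k
  cont := continuous_const.sub k.cont
  tm_ψ x hx := (congrArg (2 * pm s - ·) (k.tm_ψ (rf e.Y.M (2 * pm s) x) hx.1)).trans (sub_sub_cancel _ _)
  lit := ⟨rψ_iso k he hm hv, fun _ hx => hd _ (rf_mem hx.2)⟩

end ends

theorem ends {M : DM κ U} {N : Type} {e : N → DE κ U} {s : N → Bool} {k : ∀ i, En (e i) (s i) M}
    (h : M.OK (bd k)) {F' : Fr M.X.I M.X.M (Option κ)} {d' : M.X.M → DF κ U} (hm : Mir M F' d')
    (hl : DM.Loc ⟨M.X, F', d'⟩) (hd : ∀ i (x : (e i).Y.M × ℝ), 2 < pm (s i) * x.2 → d' ((k i).ψ x) = (e i).d x.1) :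
    ∃ k' : ∀ i, En (e i) (!s i) ⟨M.X, F', d'⟩, DM.OK ⟨M.X, F', d'⟩ (bd k') := by
  refine ⟨fun i => ren (k i) (h.en i) hm hl.ok.isv (hd i), hl, h.con, h.en,
    fun i j n => (h.dj n).mono inter_subset_left inter_subset_left, fun T => ?_⟩
  convert h.cpt (T + 2) using 4 with x i
  show pm (!s i) * (2 * pm (s i) - (k i).tm x) ≤ T ↔ pm (s i) * (k i).tm x ≤ T + 2
  rw [pm_not]
  constructor <;> intro <;> linarith [pm_mul_pm (s i)]

end Crest.Agent.X212.Dm83
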