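import Crest.Agent.X212.Ix82.Dir
import Crest.Agent.X212.Num57.Dn

/-!
# Row 212, D-MIT and D-INT (helper83): the numbers of the mirror image, additivity of the integrals
-/

set_option autoImplicit false
set_option linter.unusedSectionVars false
noncomputable section
open scoped Manifold ContDiff Topology
open MeasureTheory Set Function Filter

namespace Crest.Agent.X212.Dm83
open An Ix82
open M (Mf pm)

variable {κ U : Type} [Fintype κ] [NormedAddCommGroup U] [InnerProductSpace ℝ U] [FiniteDimensional ℝ U]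

theorem sn_sq (a : Option κ) : sn a * sn a = 1 := by cases a <;> simp [sn]

section mir
variable {M : DM κ U} {F' : Fr M.X.I M.X.M (Option κ)} (h : ∀ a x, F'.e a x = sn a • M.F.e a x)
include h

theorem mir_P (a b : Option κ) (x : M.X.M) : F'.P a b x = sn a * sn b * M.F.P a b x := by
  refine congrFun (congrFun ((Met55.fr_isP F' x).unique (Q := Matrix.of fun a b => sn a * sn b * M.F.P a b x)
    ⟨by ext a b; simp [M.F.P_symm a b, mul_comm], fun a => ?_, fun c hc => funext fun a => ?_⟩) a) b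
  · show ∑ b, (sn a * sn b * M.F.P a b x) • F'.e b x = F'.e a x
    simp only [h, smul_smul]
    conv_rhs => rw [← M.F.P_e a x, Finset.smul_sum]
    exact Finset.sum_congr rfl fun b _ => by
      rw [smul_smul]; congr 1; linear_combination sn a * M.F.P a b x * sn_sq b
  · have := M.F.P_ker x (fun b => c b * sn b) (by
      simpa only [h, smul_smul] using show ∑ b, c b • F'.e b x = 0 from hc) a
    simp only [Matrix.mulVec, dotProduct, Matrix.of_apply, Pi.zero_apply]
    rw [← mul_zero (sn a), ← this, Finset.mul_sum]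
    exact Finset.sum_congr rfl fun b _ => by ring

theorem mir_tl (a : Option κ) (x : M.X.M) : Num57.tl F' x a = sn a • Num57.tl M.F x a := by
  ext v
  obtain ⟨c, rfl⟩ := Num57.exists_comb F' x v
  have e : ∑ b, c b • Num57.ee F' x b = ∑ b, (c b * sn b) • Num57.ee M.F x b :=
    Finset.sum_congr rfl fun b _ => by rw [← smul_smul]; exact congrArg _ (h b x)
  rw [LinearMap.smul_apply, Num57.tl_comb, e, Num57.tl_comb, smul_eq_mul, Finset.mul_sum]
  exact Finset.sum_congr rfl fun b _ => by rw [mir_P h]; ring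

end mir

/-- **D-MIT** -/
theorem dMit : DMit κ U := by
  intro M F' d' hM _ h
  have v := hM.ok.vo
  have ro : Num57.RO M.F M.o F' (fun a b c d x => -(d' x).o a b c d) univ id fun x b a => sn b * M.F.P b a x := by
    refine ⟨⟨isOpen_univ, fun _ _ => contMDiffAt_id, fun a b x _ => contMDiffAt_const.mul (M.F.P_sm a b x),
      fun b x _ => ?_, fun a b x _ => ?_, fun a b x _ => ?_⟩, fun x _ => v x, fun x _ => ?_⟩
    · simp only [mfderiv_id, ContinuousLinearMap.id_apply, ← smul_smul, ← Finset.smul_sum, M.F.P_e]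
      exact h.e b x
    · rw [← (v x).pr.idem]
      exact Finset.sum_congr rfl fun c _ => by
        rw [M.F.P_symm c a]; linear_combination M.F.P a c x * M.F.P c b x * sn_sq c
    · rw [id, mir_P h.e, ← (v x).pr.idem, Finset.mul_sum]
      exact Finset.sum_congr rfl fun c _ => by rw [M.F.P_symm b c]; ring
    · funext a b c d
      rw [id, h.o, neg_neg, show M.o a b c d x = _ from
        (congrFun (congrFun (congrFun (congrFun (Num57.rot4_vol (v x)) a) b) c) d).symm]
      simp only [Eqv71.rot4, Finset.mul_sum, smul_eq_mul]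
      exact Finset.sum_congr rfl fun _ _ => Finset.sum_congr rfl fun _ _ => Finset.sum_congr rfl fun _ _ =>
        Finset.sum_congr rfl fun _ _ => by ring
  refine ⟨fun x => ⟨?_, ?_⟩, ?_⟩
  · have := ro.sgd (mem_univ x)
    rw [Num57.sgd_neg] at this
    simp only [Idg99.sgd, Num57.sgd, id] at this ⊢
    linear_combination -this
  · have := ro.eud (mem_univ x)
    rw [Num57.eud_neg] at this
    simp only [Idg99.eud, Num57.eud, id] at this ⊢
    linear_combination this
  · rintro n σ ⟨h1, e, g, h2, rfl⟩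
    have k : Num57.vol F' (fun a b c d x => (d' x).o a b c d) = -Num57.vol M.F M.o := funext fun x => by
      simp only [Num57.vol_apply, Pi.neg_apply, Num57.vl, mir_tl h.e, h.o, map_smul, smul_mul_smul_comm,
        smul_smul, ← Finset.sum_neg_distrib, ← neg_smul]
      exact Finset.sum_congr rfl fun a _ => Finset.sum_congr rfl fun b _ => Finset.sum_congr rfl fun c _ =>
        Finset.sum_congr rfl fun d _ => congrArg (· • _) (by
          cases a <;> cases b <;> cases c <;> cases d <;> simp [sn])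
    refine ⟨h1, e, fun a => -g a, ?_, by simp [Left.sign_neg]⟩
    rw [show Num57.vol _ _ = _ from k, ← Matrix.diagonal_neg]
    exact h2.neg

section int
variable {M M₁ M₂ : DM κ U}

/-- a function which vanishes on the ends -/
def Zr {N : Type} (k : N → EnS M) (f : M.X.M → ℝ) : Prop := ∀ i, ∀ x ∈ (k i).2.2.ψ.target, f x = 0

theorem zr_of (L : DLoc κ U) {N : Type} {k : N → EnS M} (h : M.OK k) :
    Zr k M.dn ∧ Zr k M.sg ∧ Zr k M.eu := by
  have : ∀ i, ∀ x ∈ (k i).2.2.ψ.target, M.dn x = 0 ∧ M.sg x = 0 ∧ M.eu x = 0 := fun i x hx => by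
    obtain ⟨y, hy, rfl⟩ := (k i).2.2.ψ.surjOn hx
    have a := L.nat _ M _ (h.en i).loc h.loc (k i).2.2.lit y hy
    have b := L.cyl _ (h.en i) y
    exact ⟨a.1.trans b.1, a.2.1.trans b.2.1, a.2.2.trans b.2.2⟩
  exact ⟨fun i x hx => (this i x hx).1, fun i x hx => (this i x hx).2.1, fun i x hx => (this i x hx).2.2⟩

theorem Zr.integrable {N : Type} {k : N → EnS M} (h : M.OK k) {f : M.X.M → ℝ} (z : Zr k f) (c : Continuous f) :
    Integrable f M.F.μ :=
  c.integrable_of_hasCompactSupport (HasCompactSupport.intro (h.cpt 0) fun x hx => by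
    obtain ⟨i, hi⟩ := not_forall.1 hx
    exact z i x ((k i).2.2.tgt ▸ not_le.1 hi))

theorem int_lit {l : OpenPartialHomeomorph M₁.X.M M.X.M} (h : M₁.Lit M l) {f : M.X.M → ℝ} {f₁ : M₁.X.M → ℝ}
    (c : Continuous f₁) (e : ∀ x ∈ l.source, f (l x) = f₁ x) (z : ∀ x ∉ l.source, f₁ x = 0) :
    ∫ y in l.target, f y ∂M.F.μ = M₁.int f₁ := by
  rw [DM.int, ← setIntegral_eq_integral_of_forall_compl_eq_zero z, Met55.integral_oph h.iso.μ c.continuousOn]
  exact setIntegral_congr_fun l.open_target.measurableSet fun y hy => by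
    rw [← e _ (l.map_target hy), l.right_inv hy]

theorem int_add {J N₁ N₂ : Type} {e : J → DE κ U} {s : J → Bool} {e₁ : N₁ → DE κ U} {s₁ : N₁ → Bool}
    {e₂ : N₂ → DE κ U} {s₂ : N₂ → Bool} {k₁ : ∀ j, En (e j) (s j) M₁} {k₂ : ∀ j, En (e j) (!s j) M₂}
    {r₁ : ∀ i, En (e₁ i) (s₁ i) M₁} {r₂ : ∀ i, En (e₂ i) (s₂ i) M₂} {r₁' : ∀ i, En (e₁ i) (s₁ i) M}
    {r₂' : ∀ i, En (e₂ i) (s₂ i) M} {l r} (h : GG k₁ k₂ r₁ r₂ M r₁' r₂' l r) {f : M.X.M → ℝ}
    {f₁ : M₁.X.M → ℝ} {f₂ : M₂.X.M → ℝ} (i : Integrable f M.F.μ) (c₁ : Continuous f₁) (c₂ : Continuous f₂)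
    (z₁ : Zr (Sum.elim (bd k₁) (bd r₁)) f₁) (z₂ : Zr (Sum.elim (bd k₂) (bd r₂)) f₂)
    (a₁ : ∀ x ∈ l.source, f (l x) = f₁ x) (a₂ : ∀ x ∈ r.source, f (r x) = f₂ x) :
    M.int f = M₁.int f₁ + M₂.int f₂ := by
  have g := h.gl
  rw [← int_lit g.l₁ c₁ a₁ fun x hx => ?_, ← int_lit g.l₂ c₂ a₂ fun x hx => ?_, DM.int,
    ← integral_add_compl l.open_target.measurableSet i,
    setIntegral_eq_of_subset_of_forall_sdiff_eq_zero r.open_target.measurableSet (s := l.targetᶜ)
      (fun y hy => (g.cov ▸ mem_univ y : y ∈ l.target ∪ r.target).resolve_left hy) fun y hy => ?_]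
  · obtain ⟨j, _, ⟨x, hx, rfl⟩, rfl⟩ := mem_iUnion.1 (g.cap.le ⟨not_not.1 hy.2, hy.1⟩)
    have m : x ∈ (k₁ j).ψ.source := (k₁ j).src ▸ hx.1
    have t := (k₁ j).ψ.map_source m
    rw [a₁ _ (g.s₁.ge fun j' => ?_), z₁ (.inl j) _ t]
    rcases eq_or_ne j' j with rfl | n
    · rw [(k₁ j').tm_ψ x m]; exact hx.2
    · have := disjoint_right.1 (h.ok₁.dj (i := .inl j') (j := .inl j) (by simpa using n)) t
      exact (not_lt.1 fun p => this ((k₁ j').tgt.ge p)).trans_lt four_pos
  · obtain ⟨j, hj⟩ := not_forall.1 (mt (fun p => g.s₂.ge p) hx)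
    exact z₂ (.inl j) x ((k₂ j).tgt.ge (four_pos.trans_le (not_lt.1 hj)))
  · obtain ⟨j, hj⟩ := not_forall.1 (mt (fun p => g.s₁.ge p) hx)
    exact z₁ (.inl j) x ((k₁ j).tgt.ge (four_pos.trans_le (not_lt.1 hj)))

end int

/-- **D-INT** -/
theorem dInt (L : DLoc κ U) : DInt κ U := by
  intro M₁ M₂ M J N₁ N₂ _ _ _ e s e₁ s₁ e₂ s₂ k₁ k₂ r₁ r₂ r₁' r₂' l r h
  have z := zr_of L h.ok
  have z₁ := zr_of L h.ok₁
  have z₂ := zr_of L h.ok₂
  have c := L.sm _ h.ok.loc
  have c₁ := L.sm _ h.ok₁.loc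
  have c₂ := L.sm _ h.ok₂.loc
  have a₁ := L.nat _ _ _ h.ok₁.loc h.ok.loc h.gl.l₁
  have a₂ := L.nat _ _ _ h.ok₂.loc h.ok.loc h.gl.l₂
  exact ⟨int_add h (z.1.integrable h.ok c.1.continuous) c₁.1.continuous c₂.1.continuous z₁.1 z₂.1
      (fun x hx => (a₁ x hx).1) fun x hx => (a₂ x hx).1,
    int_add h (z.2.1.integrable h.ok c.2.1.continuous) c₁.2.1.continuous c₂.2.1.continuous z₁.2.1 z₂.2.1
      (fun x hx => (a₁ x hx).2.1) fun x hx => (a₂ x hx).2.1,
    int_add h (z.2.2.integrable h.ok c.2.2.continuous) c₁.2.2.continuous c₂.2.2.continuous z₁.2.2 z₂.2.2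
      (fun x hx => (a₁ x hx).2.2) fun x hx => (a₂ x hx).2.2⟩

end Crest.Agent.X212.Dm83
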