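import Crest.Agent.X212.Dm83.Gau
import Crest.Agent.X212.Dm83.Geo

/-!
# Row 212, D-MIR (helper83), part 3: the mirror image exists
-/

set_option autoImplicit false
set_option linter.unusedSectionVars false
noncomputable section
open scoped Manifold ContDiff Topology InnerProductSpace
open MeasureTheory Set Function Filter Real

namespace Crest.Agent.X212.Dm83
open An Ix82 Wz78 Sob92 Ind95 Cyf70
open M (Mf pm)

variable {κ U : Type} [Fintype κ] [NormedAddCommGroup U] [InnerProductSpace ℝ U] [FiniteDimensional ℝ U]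

attribute [local instance] cpl

/-- the rotation by the angle `θ` -/
def gg (M : DM κ U) (θ : M.X.M → ℝ) (σ : ℝ) (x : M.X.M) : U →L[ℝ] U :=
  1 + (cos (θ x) - 1) • M.p x + (σ * sin (θ x)) • M.ρ none x

section rot
variable {M : DM κ U} (L : M.Loc) {θ : M.X.M → ℝ}
include L

theorem pp (x : M.X.M) : M.p x * M.p x = M.p x := by
  simp only [DM.p, add_mul, mul_add, L.gr.id0, L.gr.id1, L.gr.o01, L.gr.o10, add_zero, zero_add]

theorem rr {x : M.X.M} (h : M.F.P none none x = 1) : M.ρ none x * M.ρ none x = -M.p x := by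
  have := (L.dm.cc.cl x).rel none none
  rw [h, ← two_smul ℝ, mul_one, neg_smul, ← smul_neg] at this
  exact smul_right_injective _ two_ne_zero this

theorem gg_mul (h : ∀ x, θ x ≠ 0 → M.F.P none none x = 1) {σ : ℝ} (hσ : σ * σ = 1) (x : M.X.M) :
    gg M θ σ x * gg M θ (-σ) x = 1 := by
  by_cases h0 : θ x = 0
  · simp [gg, h0]
  have a := pp L x
  have b := rr L (h x h0)
  have c : M.p x * M.ρ none x = M.ρ none x := (L.dm.cc.cl x).pl none
  have d : M.ρ none x * M.p x = M.ρ none x := (L.dm.cc.cl x).pr none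
  unfold gg
  generalize M.p x = p at *
  simp only [add_mul, mul_add, one_mul, mul_one, smul_mul_assoc, mul_smul_comm, a, b, c, d]
  match_scalars
  · ring
  · linear_combination cos_sq_add_sin_sq (θ x) + sin (θ x) ^ 2 * hσ
  · ring

theorem sm_gg (hθ : Sm M.X.I θ) (σ : ℝ) (x : M.X.M) : SA M.X.I (gg M θ σ) x :=
  (contMDiffAt_const.add (SA.smul ((contDiff_cos.contMDiff.comp hθ x).sub contMDiffAt_const)
    (L.dm.cc.sp x))).add (SA.smul (contMDiffAt_const.mul (contDiff_sin.contMDiff.comp hθ x)) (L.dm.cc.sρ none x))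

theorem og (hθ : Sm M.X.I θ) (h : ∀ x, θ x ≠ 0 → M.F.P none none x = 1) :
    Og M (gg M θ 1) (gg M θ (-1)) where
  sg := sm_gg L hθ 1
  gh := gg_mul L h (one_mul 1)
  hg x := by simpa only [neg_neg] using gg_mul L h (σ := -1) (by norm_num) x
  st x := by
    simp only [gg, DM.p, star_add, star_smul, star_one, star_trivial, sym_iff.1 (L.gr.sym0 x),
      sym_iff.1 (L.gr.sym1 x), skew_iff.1 (L.dm.skρ none x), neg_mul, neg_smul, smul_neg]

theorem far (G : Og M (gg M θ 1) (gg M θ (-1))) {x : M.X.M} (hθ : ∀ᶠ y in 𝓝 x, θ y = π / 2)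
    (h1 : M.F.P none none x = 1) (h2 : ∀ a, M.F.P none (some a) x = 0) (h3 : M.A none x = 0)
    (h4 : ∀ a, nabE M.X.I M.F.e M.A a (M.ρ none) x = 0)
    (h5 : ∀ a b c d, -(sn a * sn b * sn c * sn d * M.o a b c d x) = M.o a b c d x) :
    md M (gg M θ 1) (gg M θ (-1)) x = M.d x := by
  have K := L.dm.cc.cl x
  have R := L.gr
  have R' := R.symm L.dm.cc
  have e1 : gg M θ 1 =ᶠ[𝓝 x] fun y => 1 - M.p y + M.ρ none y := hθ.mono fun y hy => by
    simp [gg, hy, sub_eq_add_neg, -neg_add_rev, -smul_add]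
  have e2 : gg M θ (-1) x = 1 - M.p x - M.ρ none x := by
    simp [gg, hθ.self_of_nhds, sub_eq_add_neg, -neg_add_rev, -smul_add]
  have c : ∀ T, M.p x * T = T → T * M.p x = T →
      gg M θ 1 x * T * gg M θ (-1) x = -(M.ρ none x * T * M.ρ none x) := fun T a b => by
    rw [e1.self_of_nhds, e2, add_mul, sub_mul, one_mul, a, sub_self, zero_add, mul_sub, mul_sub, mul_one,
      mul_assoc _ T (M.p x), b, sub_self, zero_sub]
  have a0 : M.p x * M.p₀ x = M.p₀ x := by rw [DM.p, add_mul, R.id0, R.o10, add_zero]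
  have b0 : M.p₀ x * M.p x = M.p₀ x := by rw [DM.p, mul_add, R.id0, R.o01, add_zero]
  have a1 : M.p x * M.p₁ x = M.p₁ x := by rw [DM.p, add_mul, R.id1, R.o01, zero_add]
  have b1 : M.p₁ x * M.p x = M.p₁ x := by rw [DM.p, mul_add, R.id1, R.o10, zero_add]
  have p1 : gg M θ 1 x * M.p₀ x * gg M θ (-1) x = M.p₁ x := by
    rw [c _ a0 b0, R.sw, mul_assoc, rr L h1, mul_neg, neg_neg, b1]
  refine DF.ext (by funext a b c d; exact h5 a b c d) ?_ p1 (funext fun a => ?_) (funext fun a => ?_) ?_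
  · show gg M θ 1 x * M.p₁ x * gg M θ (-1) x = M.p₀ x
    rw [c _ a1 b1, R'.sw, mul_assoc, rr L h1, mul_neg, neg_neg, b0]
  · show -sn a • (gg M θ 1 x * M.ρ a x * gg M θ (-1) x) = M.ρ a x
    rw [c _ (K.pl a) (K.pr a)]
    cases a with
    | none => rw [rr L h1, neg_mul, K.pl none, sn, neg_neg, neg_neg, one_smul]
    | some a =>
      have := K.rel none (some a)
      rw [h2, mul_zero, zero_smul] at this
      rw [eq_neg_of_add_eq_zero_left this, neg_mul, mul_assoc, rr L h1, mul_neg, K.pr (some a), sn]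
      simp
  · show sn a • (gg M θ 1 x * M.A a x * gg M θ (-1) x - dv M.X.I (M.F.e a) (gg M θ 1) x * gg M θ (-1) x) = M.A a x
    have := nabE_congr (I := M.X.I) (e := M.F.e) (A := M.A) a e1
    rw [nabE_add a (contMDiffAt_const.sub (L.dm.cc.sp x)) (L.dm.cc.sρ none x), h4,
      nabE_sub a contMDiffAt_const (L.dm.cc.sp x),
      show nabE M.X.I M.F.e M.A a M.p x = 0 from L.dm.cc.par a x] at this
    simp only [nabE, dv_const, Pi.zero_apply, mul_one, one_mul, sub_self, add_zero] at this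
    rw [eq_neg_of_add_eq_zero_left this, neg_mul, sub_mul, mul_assoc (M.A a x), G.gh, mul_one,
      sub_neg_eq_add, add_sub_cancel]
    cases a
    · rw [h3, smul_zero]
    · exact one_smul _ _
  · show gg M θ 1 x * M.p₀ x * gg M θ (-1) x * M.B x = M.B x
    rw [p1]
    exact ContinuousLinearMap.ext (L.pB x)

end rot

section ends
variable {M : DM κ U} {e : DE κ U} {s : Bool} (k : En e s M)

/-- the cut-off function of an end -/
def bt (x : M.X.M) : ℝ := smoothTransition (2 * (pm s * k.tm x) - 1)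

theorem bt_zero {x : M.X.M} (hx : x ∉ k.ψ.target) : bt k =ᶠ[𝓝 x] fun _ => 0 := by
  have h : pm s * k.tm x < 1 / 2 := (not_lt.1 fun h => hx (k.tgt.ge h)).trans_lt one_half_pos
  filter_upwards [(isOpen_lt (continuous_const.mul k.cont) continuous_const).mem_nhds h] with y hy
  exact smoothTransition.zero_of_nonpos (by have : pm s * k.tm y < 1 / 2 := hy; linarith)

theorem bt_sm : Sm M.X.I (bt k) := fun x => by
  by_cases hx : x ∈ k.ψ.target
  · exact smoothTransition.contDiff.contMDiff.contMDiffAt.comp x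
      ((contMDiffAt_const.mul (contMDiffAt_const.mul (En.sm k x hx))).sub contMDiffAt_const)
  · exact contMDiffAt_const.congr_of_eventuallyEq (bt_zero k hx)

theorem en_nab (L : M.Loc) (he : e.OK) {x : e.Y.M × ℝ} (hx : x ∈ k.ψ.source) (a : Option κ) :
    nabE M.X.I M.F.e M.A a (M.ρ none) (k.ψ x) = 0 := by
  have h1 := iso_D' k.lit.iso a (g := e.cyl.ρ none) (u := M.ρ none) (L.dm.cc.sρ none)
    (fun y hy => congrArg (·.ρ none) (k.lit.d y hy).symm) hx
  have h2 := he.loc.dm.cc.comp a none x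
  rw [Tmp64.gam_cyl, Finset.sum_eq_zero fun b _ => by cases a <;> exact zero_smul _ _] at h2
  rw [nabE, DM.A, show M.ρ none (k.ψ x) = (M.d (k.ψ x)).ρ none from rfl, k.lit.d x hx]
  exact (congrArg (· + _) h1.symm).trans h2

end ends

/-- **D-MIR** -/
theorem dMir : DMir κ U := by
  intro M N _ e s k h
  set θ : M.X.M → ℝ := fun x => π / 2 * ∑ i, bt (k i) x with hθ
  have G : Og M (gg M θ 1) (gg M θ (-1)) := og h.loc
    (contMDiff_const.mul (contMDiff_finsetSum fun i _ => bt_sm (k i))) fun x hx => by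
      obtain ⟨i, -, hi⟩ := Finset.exists_ne_zero_of_sum_ne_zero (right_ne_zero_of_mul hx)
      obtain ⟨y, hy, rfl⟩ := (k i).ψ.surjOn (of_not_not fun n => hi (bt_zero (k i) n).self_of_nhds)
      exact (Met55.iso_P (k i).lit.iso hy _ _).symm
  have m : Mir M (mf M.F) (md M (gg M θ 1) (gg M θ (-1))) := ⟨fun _ _ => rfl, rfl, fun _ _ _ _ _ => rfl⟩
  refine ⟨_, _, m, ends h m (G.loc m.e h.loc (mf_gam M.F) (mf_ok h.loc.ok)) fun i x hx => ?_⟩
  have hs : x ∈ (k i).ψ.source := (k i).src.ge (two_pos.trans hx)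
  have hd := (k i).lit.d x hs
  refine (far h.loc G ?_ (Met55.iso_P (k i).lit.iso hs _ _).symm (fun a => (Met55.iso_P (k i).lit.iso hs _ _).symm)
    ((congrArg (·.A none) hd).trans ((h.en i).tmp _)) (en_nab (k i) h.loc (h.en i) hs) fun a b c d => ?_).trans hd
  · have h1 : 1 < pm (s i) * (k i).tm ((k i).ψ x) := by rw [(k i).tm_ψ x hs]; linarith
    filter_upwards [(isOpen_lt continuous_const (continuous_const.mul (k i).cont)).mem_nhds h1] with y hy
    have h2 : 1 < pm (s i) * (k i).tm y := hy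
    rw [hθ]
    dsimp only
    rw [Finset.sum_eq_single i (fun j _ n => (bt_zero (k j) (disjoint_right.1 (h.dj n)
      ((k i).tgt.ge (one_pos.trans h2)))).self_of_nhds) (by simp), bt,
      smoothTransition.one_of_one_le (by linarith), mul_one]
  · rw [DM.o, hd]
    exact oc (h.en i) _ a b c d

end Crest.Agent.X212.Dm83
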