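import Crest.Agent.X212.Add68.Dad
import Crest.Agent.X212.Mp86.Dl
import Crest.Agent.X212.Cht98.Dp
import Crest.Agent.X212.Cht98.PchA

/-!
# Row 212, D-TAME and D-FRED (helper83): bounded geometry and the Fredholm property
-/

set_option autoImplicit false
set_option linter.unusedSectionVars false
noncomputable section
open scoped Manifold ContDiff Topology InnerProductSpace
open MeasureTheory Set Function Filter

namespace Crest.Agent.X212.Dm83
open An An.Pre Sob92 Cyf70 Ix82 Add68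
open M (Mf pm)

variable {κ U : Type} [Fintype κ] [NormedAddCommGroup U] [InnerProductSpace ℝ U]
  [FiniteDimensional ℝ U] {M M' : DM κ U} {N : Type} [Fintype N]

theorem mem_Jv (s : Bool) (t : ℝ) :
    t ∈ Nd18.Jv (cond s (some 0) none) (cond s none (some 0)) ↔ 0 < pm s * t := by
  cases s <;> simp [Nd18.Jv, pm]

theorem nck {e : DE κ U} {s : Bool} (k : En e s M) :
    Cht98.Nck e.F.toPre M.F.toPre (cond s (some 0) none) (cond s none (some 0)) k.ψ k.tm :=
  ⟨k.src.trans (Set.ext fun _ => ⟨fun h => ⟨trivial, (mem_Jv s _).2 h⟩, fun h => (mem_Jv s _).1 h.2⟩),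
    k.tgt.trans (Set.ext fun _ => (mem_Jv s _).symm), k.cont, k.tm_ψ, k.lit.iso⟩

section tame
variable {k : N → EnS M} (h : M.OK k)
include h

theorem ok_tame : ∃ C, M.F.Tame C := by
  obtain ⟨C0, k0⟩ := Cht98.TOn.compact M.F M.X.dim.le (h.cpt 1)
  choose C1 k1 using fun i => Cht98.deep_nck (k i).1.F (k i).1.Y.dim.le one_pos
  choose C2 k2 using fun n => (finite_range fun i => C1 i n).bddAbove
  refine ⟨_, Cht98.tame_of_deep (C := fun n => max (C0 n) (C2 n)) (h.cpt 1) (fun x hx => ?_)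
    (k0.mono subset_rfl fun _ => le_max_left _ _) fun i => (k1 i (nck (k i).2.2)).mono subset_rfl
      fun n => (k2 n ⟨i, rfl⟩).trans (le_max_right _ _)⟩
  obtain ⟨i, hi⟩ := not_forall.1 hx
  refine ⟨i, ?_⟩
  generalize (k i).2.2.tm = t at hi ⊢
  generalize (k i).2.1 = s at hi ⊢
  cases s <;> simp [Cht98.Jc, pm] at hi ⊢ <;> linarith

theorem ok_cb {V : Type} [NormedAddCommGroup V] [NormedSpace ℝ V] (f : DF κ U → V)
    (hf : ∀ M : DM κ U, M.Loc → Sm M.X.I fun x => f (M.d x)) : M.F.Cb fun x => f (M.d x) := by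
  obtain ⟨C0, k0⟩ := Cht98.bOn_compact M.F.toPre (h.cpt 0) (f := fun _ : Unit => fun x => f (M.d x))
    fun _ => hf M h.loc
  choose C1 k1 using fun i => Cht98.Cb_fst (k i).1.F.toPre
    (Cb_of_compact (sm_slice_fst (hf _ (h.en i).loc) 0))
  choose C2 k2 using fun n => (finite_range fun i => C1 i n).bddAbove
  refine ⟨fun n => max (C0 n) (C2 n), Cht98.CBs_of_BOn (hf M h.loc) fun x => ?_⟩
  by_cases hx : x ∈ {x | ∀ i, pm (k i).2.1 * (k i).2.2.tm x ≤ 0}
  · exact ⟨_, hx, (k0 ()).mono subset_rfl fun _ => le_max_left _ _⟩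
  · obtain ⟨i, hi⟩ := not_forall.1 hx
    exact ⟨_, (k i).2.2.tgt.ge (not_le.1 hi), ((nck (k i).2.2).bOn
      (fun x hx => congrArg f ((k i).2.2.lit.d x hx)) (k1 i)).mono subset_rfl
        fun n => (k2 n ⟨i, rfl⟩).trans (le_max_right _ _)⟩

end tame

variable (κ U) in
/-- **D-TAME** -/
theorem dTame : DTame κ U := fun M _ _ _ h =>
  let ⟨_, hC⟩ := ok_tame h
  let ⟨_, _, hA⟩ := Map77.good_of (A := M.op) hC (ok_cb h DF.p₀ fun _ l => l.gr.s0)
    (ok_cb h DF.p₁ fun _ l => (Mp86.Dl.gr' l).s0)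
    (fun a => ok_cb h (fun d => d.ρ a * d.p₀) fun _ l => Mp86.Dl.sm_σ l a)
    (ok_cb h DF.B fun _ l => l.sB) (Mp86.Dl.alg h.loc)
  ⟨⟨_, hC⟩, ⟨_, hA⟩, Mp86.Dl.cliff h.loc⟩

/-- transports intertwine the operators up to compact errors -/
theorem cq_tr {φ c t t'} (h : Li M.F.toPre M'.F.toPre φ c t t') (l : M.Lit M' φ)
    (k : Ti M.F.toPre t) (k' : Ti M'.F.toPre t') (hc : IsCompact {x | |t x| ≤ 1 / 2})
    (S : Sy M.F M.op 7 M.H) (S' : Sy M'.F M'.op 7 M'.H) :
    Cq (M.H ∘L tr M.F.toPre M'.F.toPre φ (7 + 1) M'.op.p M.op.p fun x => pr c (t' x))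
      (tr M.F.toPre M'.F.toPre φ 7 M'.op.q M.op.q (fun x => pr c (t' x)) ∘L M'.H) :=
  blk S S' (h.lk k k') (by omega) (bl_loc h k.cont hc S S' (by omega)
    (fun x hx => congrArg DF.p₀ (l.d x hx).symm) (fun x hx => congrArg DF.p₁ (l.d x hx).symm)
    (fun a x hx => congrArg (fun d : DF κ U => d.ρ a * d.p₀) (l.d x hx).symm)
    fun x hx => congrArg DF.B (l.d x hx).symm)

section abs
variable {X Y : ℕ → Type} [∀ k, NormedAddCommGroup (X k)] [∀ k, InnerProductSpace ℝ (X k)]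
  [∀ k, NormedAddCommGroup (Y k)] [∀ k, InnerProductSpace ℝ (Y k)] [∀ k, CompleteSpace (X k)]
  [∀ k, CompleteSpace (Y k)] (P : Ell97.Pair X Y) (n : ℕ)

theorem par_l {a : X (n + 2) →L[ℝ] X (n + 2)} (c : IsCompactOperator (P.i (n + 1) ∘L a)) :
    ∃ Q : _ →L[ℝ] _, Cq (Q ∘L P.L (n + 1) ∘L a ∘L a) (a ∘L a) :=
  ⟨P.G n ∘L P.Ls n, .of_cpt (K := -(P.G n ∘L P.i n) ∘L (P.i (n + 1) ∘L a) ∘L a)
    ((c.comp_clm a).clm_comp (P.G n ∘L P.i n)).neg fun x => eq_add_neg_of_add_eq ((map_add (P.G n) _ _).symm.trans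
      ((congrArg (P.G n) (add_comm _ _)).trans (P.G_Q n (a (a x)))))⟩

theorem par_r {b : Y n →L[ℝ] Y n} (c : IsCompactOperator (b ∘L P.j n)) :
    ∃ Q : _ →L[ℝ] _, Cq ((b ∘L b) ∘L P.L n ∘L Q) (b ∘L b) :=
  ⟨P.Ls (n + 1) ∘L P.swap.G n, .of_cpt (K := -b ∘L (b ∘L P.j n) ∘L P.j (n + 1) ∘L P.swap.G n)
    ((c.comp_clm (P.j (n + 1) ∘L P.swap.G n)).clm_comp b).neg fun x =>
      eq_add_neg_of_add_eq ((map_add (b ∘L b) _ _).symm.trans (congrArg (b ∘L b)
        ((add_comm _ _).trans (P.swap.Q_G n x))))⟩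

end abs

/-- interior parametrices -/
theorem par_in (S : Sy M.F M.op 7 M.H) (hc : M.op.Cliff M.F) {g : M.X.M → ℝ} (hg : M.F.Cb g)
    (hs : HasCompactSupport g) {a : M.F.H (7 + 1) M.op.p →L[ℝ] M.F.H (7 + 1) M.op.p}
    {b : M.F.H 7 M.op.q →L[ℝ] M.F.H 7 M.op.q} (ha : M.F.Rep a fun u x => g x • u x)
    (hb : M.F.Rep b fun u x => g x • u x) :
    (∃ Q : _ →L[ℝ] _, Cq (Q ∘L M.H ∘L a ∘L a) (a ∘L a)) ∧
      ∃ Q : _ →L[ℝ] _, Cq ((b ∘L b) ∘L M.H ∘L Q) (b ∘L b) := by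
  have cp := fun p : M.X.M → U →L[ℝ] U =>
    Cht98.rellich_smul (F := M.F.toPre) (q := p) (Prm93.Cb.sm hg) hs (Nat.lt_succ_self 7)
  have c1 := cp M.op.p
  have c2 := cp M.op.q
  rw [RepT_eq (RepT_comp (rep_smulH hg) (rep_incl (Nat.le_succ 7)))
    (RepT_comp (rep_incl (Nat.le_succ 7)) ha) fun _ => rfl] at c1
  rw [RepT_eq (RepT_comp (rep_smulH hg) (rep_incl (Nat.le_succ 7)))
    (RepT_comp hb (rep_incl (Nat.le_succ 7))) fun _ => rfl] at c2
  exact ⟨par_l (Ell97.par S.tame.choose_spec S.good.choose_spec hc) 6 c1,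
    par_r (Ell97.par S.tame.choose_spec S.good.choose_spec hc) 7 c2⟩

section fred
variable {e : N → DE κ U} {s : N → Bool} {k : ∀ i, En (e i) (s i) M}

variable (k) in
/-- the height in one end -/
abbrev h1 (i : N) : M.X.M → ℝ := ht (e := fun _ : Unit => e i) (s := fun _ => s i) fun _ => k i

theorem dj1 (i : N) : Dj (e := fun _ : Unit => e i) (s := fun _ => s i) fun _ => k i :=
  fun _ _ h => (h rfl).elim

theorem li_end (i : N) : Li (e i).cyl.F.toPre M.F.toPre (k i).ψ false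
    (fun x => pm (s i) * x.2 + -2) fun x => h1 k i x - 2 := by
  refine ⟨(k i).lit.iso, fun x hx => (src_iff k).2 ?_, fun x hx => ?_,
    fun x hx => (congrArg (· - 2) (ht_ψ (j := ()) (dj1 i) hx)).symm⟩ <;>
    simp only [pm, Bool.false_eq_true, if_false] at hx ⊢
  · linarith
  · obtain ⟨_, z, hz, rfl⟩ := ht_pos (fun _ : Unit => k i) (x := x) (by linarith)
    exact (k i).ψ.map_source hz

theorem part (hd : Dj k) (x : M.X.M) : pr true (ht k x - 2) * pr true (ht k x - 2) +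
    ∑ i, pr false (h1 k i x - 2) * pr false (h1 k i x - 2) = 1 := by
  have z : ∀ i, x ∉ (k i).ψ.target → pr false (h1 k i x - 2) * pr false (h1 k i x - 2) = 0 :=
    fun i hi => by
      rw [h1, ht_zero _ fun _ => hi, show pr false (0 - 2) = 0 from
        (pr_lo (b := true) (by norm_num [pm])).2, mul_zero]
  by_cases hx : ∃ i, x ∈ (k i).ψ.target
  · obtain ⟨i, hi⟩ := hx
    have a := (k i).ψ.map_target hi
    rw [Finset.sum_eq_single i (fun j _ hj => z j fun h => disjoint_left.1 (hd hj) h hi) (by simp),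
      ← (k i).ψ.right_inv hi, h1, ht_ψ hd a, ht_ψ (j := ()) (dj1 i) a, pr_sq]
  · rw [Finset.sum_eq_zero fun i _ => z i fun h => hx ⟨i, h⟩, ht_zero k (not_exists.1 hx),
      (pr_lo (b := true) (by norm_num [pm])).1]
    simp

theorem fred (h : M.OK (bd k)) (inv : ∀ i, (e i).Inv) : M.H.IsFredholm := by
  have S := sy_of (dTame κ U) h
  have S' := fun i => sy_of (dTame κ U) (cyl_ok (h.en i))
  have hd : Dj k := h.dj
  have t0 := ti_ht hd
  have t1 := fun i => ti_ht (dj1 (k := k) i)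
  have t2 : ∀ i, Ti (e i).cyl.F.toPre fun x => pm (s i) * x.2 + -2 := fun i =>
    ⟨by fun_prop, fun c => cb_pm _ c _ _⟩
  have c0 : IsCompact {x | ht k x - 2 ≤ 1 / 2} := (h.cpt 3).of_isClosed_subset
    (isClosed_le t0.cont continuous_const) fun x hx j => (le_ht k j).trans
      (by linarith [show ht k x - 2 ≤ _ from hx])
  have c2 : ∀ i, IsCompact {x : (e i).Y.M × ℝ | |pm (s i) * x.2 + -2| ≤ 1 / 2} := fun i =>
    (isCompact_univ.prod (isCompact_Icc (a := -3) (b := 3))).of_isClosed_subset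
      (isClosed_le (by fun_prop) continuous_const) fun x hx => ⟨trivial, abs_le.1 (by
        have hx := abs_le.1 (show |pm (s i) * x.2 + -2| ≤ 1 / 2 from hx)
        rw [← Cut71.abs_pm (s i), abs_le]
        exact ⟨by linarith [hx.1], by linarith [hx.2]⟩)⟩
  have l1 := fun i => li_end (k := k) i
  have c1 : ∀ i, IsCompact {x | |h1 k i x - 2| ≤ 1 / 2} := fun i =>
    ((c2 i).image_of_continuousOn ((k i).ψ.continuousOn.mono fun _ hz =>
      (l1 i).s _ (abs_le' hz _))).of_isClosed_subset (isClosed_le (t1 i).cont.abs continuous_const)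
      fun x hx => have a := (l1 i).s' x (abs_le' hx _)
        ⟨_, (congrArg abs ((l1 i).e.symm _ a)).ge.trans hx, (k i).ψ.right_inv a⟩
  have l0 : Li M.F.toPre M.F.toPre (.refl _) true (fun x => ht k x - 2) fun x => ht k x - 2 :=
    ⟨Cht98.iso_refl _, fun _ _ => trivial, fun _ _ => trivial, fun _ _ => rfl⟩
  have a0 := cq_tr l0 ⟨l0.iso, fun _ _ => rfl⟩ t0 t0 (c0.of_isClosed_subset
    (isClosed_le t0.cont.abs continuous_const) fun x hx => (le_abs_self (ht k x - 2)).trans hx) S S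
  have a1 := fun i => cq_tr (l1 i) (k i).lit (t2 i) (t1 i) (c2 i) (S' i) S
  have a2 := fun i => cq_tr ⟨iso_symm (l1 i).iso, (l1 i).s', (l1 i).s, (l1 i).e.symm⟩
    (DLit.symm (k i).lit) (t1 i) (t2 i) (c1 i) S (S' i)
  choose Q q1 q2 using fun i => Cht98.exists_inv (inv i)
  have L0 := l0.lk t0 t0
  have pt : ∀ n (p : DF κ U → U →L[ℝ] U), tr M.F.toPre M.F.toPre (.refl _) n (fun x => p (M.d x))
      (fun x => p (M.d x)) (fun x => pr true (ht k x - 2)) ∘L tr M.F.toPre M.F.toPre (.refl _) n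
      (fun x => p (M.d x)) (fun x => p (M.d x)) (fun x => pr true (ht k x - 2)) +
      ∑ i, tr M.F.toPre (e i).cyl.F.toPre (k i).ψ.symm n (fun x => p ((e i).cyl.d x))
        (fun x => p (M.d x)) (fun x => pr false (pm (s i) * x.2 + -2)) ∘L
        tr (e i).cyl.F.toPre M.F.toPre (k i).ψ n (fun x => p (M.d x)) (fun x => p ((e i).cyl.d x))
          (fun x => pr false (h1 k i x - 2)) = .id ℝ _ := fun n p =>
    RepT_eq (RepT_add (L0.sq fun _ _ => rfl) (RepT_sum _ fun i _ => ((l1 i).lk (t2 i) (t1 i)).symm.sq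
      fun x hx => congrArg p ((DLit.symm (k i).lit).d x hx).symm)) Rep_id fun u => funext fun x => by
        simp only [Pi.add_apply, ← Finset.sum_smul, ← add_smul, part hd, one_smul, id]
  have b0 : Cq ((_ ∘L _) ∘L M.H) (M.H ∘L _ ∘L _) := (a0.symm.left _).trans (a0.symm.right _)
  obtain ⟨⟨Q₀, k₀⟩, Q₁, k₁⟩ := par_in S (Mp86.Dl.cliff h.loc) L0.cb (.intro c0 fun x hx =>
    by_contra fun e => hx (by simpa [pm] using (pr_ne e).le)) (L0.rep fun _ _ => rfl)
    (L0.rep fun _ _ => rfl)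
  exact isFredholm_of_cq (Cht98.left_patch₀ b0 k₀ (fun i => (a1 i).symm) q1 (pt _ DF.p₀))
    (Cht98.right_patch₀ b0.symm k₁ a2 q2 (pt _ DF.p₁))

end fred

variable (κ U) in
/-- **D-FRED** -/
theorem dFred : DFred κ U := fun _ _ _ k h inv =>
  ⟨_, .of (fred (e := fun i => (k i).1) (s := fun i => (k i).2.1) (k := fun i => (k i).2.2) h inv)⟩

end Crest.Agent.X212.Dm83
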